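import Mathlib

/-! P038 (Seymour's second neighbourhood conjecture), helper465, note 22696. Base definitions. -/

namespace Vale.Agent.P038.H465

open Finset

attribute [local instance] Classical.propDecidable

variable {V : Type} [Fintype V]

/-- reflexive arc relation `u ∈ N[a]` -/
def R (D : V → V → Prop) (a u : V) : Prop := a = u ∨ D a u

/-- oriented graph -/
def Ori (D : V → V → Prop) : Prop := (∀ v, ¬ D v v) ∧ ∀ u v, D u v → ¬ D v u

/-- `N[S]` -/
noncomputable def cl (D : V → V → Prop) (S : Finset V) : Finset V :=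
  univ.filter (fun u => ∃ x ∈ S, R D x u)

/-- `{x : N[x] ⊆ S}` -/
noncomputable def int (D : V → V → Prop) (S : Finset V) : Finset V :=
  univ.filter (fun x => ∀ y, R D x y → y ∈ S)

/-- `{z : N⁻[z] ⊆ S}` -/
noncomputable def er (D : V → V → Prop) (S : Finset V) : Finset V :=
  univ.filter (fun z => ∀ z', R D z' z → z' ∈ S)

/-- `N⁻[S]` -/
noncomputable def cm (D : V → V → Prop) (S : Finset V) : Finset V :=
  univ.filter (fun x => ∃ y ∈ S, R D x y)

/-- `h(X) = 2|N[X]| - |X| - |N[N[X]]|` -/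
noncomputable def h (D : V → V → Prop) (X : Finset V) : ℤ :=
  2 * ((cl D X).card : ℤ) - X.card - ((cl D (cl D X)).card : ℤ)

/-- feasible pair: `B` given by rows (`B a = {x : (a,x) ∈ B}`), `U` given by columns
(`U x = {a : (a,x) ∈ U}`). -/
structure Feas (D : V → V → Prop) (B U : V → Finset V) : Prop where
  refl : ∀ a x, R D a x → x ∈ B a
  le : ∀ a x, x ∈ B a → a ∈ U x
  rev : ∀ y z, D y z → z ∉ U y

/-- `N'(B,U) = |EB| - |B| + |U| - |AU|` -/
noncomputable def en' (D : V → V → Prop) (B U : V → Finset V) : ℤ :=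
  (∑ a, (((cl D (B a)).card : ℤ) - (B a).card)) + ∑ x, (((U x).card : ℤ) - (er D (U x)).card)

/-- `N(B,U) = |B| - |IB| + |JU| - |U|` -/
noncomputable def en (D : V → V → Prop) (B U : V → Finset V) : ℤ :=
  (∑ a, (((B a).card : ℤ) - (int D (B a)).card)) + ∑ x, (((cm D (U x)).card : ℤ) - (U x).card)

/-- size of a relation -/
noncomputable def cnt (r : V → V → Prop) : ℕ := (univ.filter (fun p : V × V => r p.1 p.2)).card

theorem cnt_rows (r : V → V → Prop) : cnt r = ∑ a, (univ.filter (fun u => r a u)).card := by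
  unfold cnt
  simp only [Finset.card_filter]
  rw [Fintype.sum_prod_type]

theorem cnt_cols (r : V → V → Prop) : cnt r = ∑ u, (univ.filter (fun a => r a u)).card := by
  unfold cnt
  simp only [Finset.card_filter]
  rw [Fintype.sum_prod_type_right]

/-- `AU` as a relation -/
def AU (D : V → V → Prop) (U : V → Finset V) (a x : V) : Prop := ∀ a', R D a' a → a' ∈ U x
/-- `AB` -/
def AB (D : V → V → Prop) (B : V → Finset V) (a x : V) : Prop := ∀ a', R D a' a → x ∈ B a'
/-- `EU` -/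
def EU (D : V → V → Prop) (U : V → Finset V) (a u : V) : Prop := ∃ x, R D x u ∧ a ∈ U x
/-- `EB` -/
def EB (D : V → V → Prop) (B : V → Finset V) (a u : V) : Prop := ∃ x, R D x u ∧ x ∈ B a
/-- `P = EAU` -/
def PP (D : V → V → Prop) (U : V → Finset V) (a u : V) : Prop := ∃ x, R D x u ∧ AU D U a x
/-- `Q = AEB` -/
def QQ (D : V → V → Prop) (B : V → Finset V) (a u : V) : Prop := ∀ a', R D a' a → EB D B a' u

/-- (O3) -/
def O3 (D : V → V → Prop) (B U : V → Finset V) : Prop :=
  ∀ a (S : Finset V), (∀ x ∈ S, a ∈ U x) → (S \ B a).card ≤ (cl D S \ cl D (B a)).card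

/-- (O4) -/
def O4 (D : V → V → Prop) (B U : V → Finset V) : Prop :=
  ∀ x (T : Finset V), (∀ a ∈ T, x ∉ B a) → (T ∩ U x).card ≤ (cl D T ∩ er D (U x)).card

/-- unweighted counterexample: `h {v} = |N⁺(v)| - |N₂(v)| > 0` for all `v` -/
def CE (D : V → V → Prop) : Prop := Ori D ∧ ∀ v, 0 < h D {v}

/-- arc-minimal counterexample -/
def CEmin (D : V → V → Prop) : Prop :=
  CE D ∧ ∀ D' : V → V → Prop, (∀ u v, D' u v → D u v) → CE D' → ∀ u v, D u v → D' u v

/-- block B1 -/
def StExistsMin (V : Type) [Fintype V] : Prop :=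
  ∀ D : V → V → Prop, CE D → ∃ D' : V → V → Prop, CEmin D'

/-- block B2: 294's theorem (G), unweighted -/
def StG (V : Type) [Fintype V] : Prop :=
  ∀ D : V → V → Prop, CEmin D → ∀ X : Finset V, ¬ cl D X ⊆ X → 0 < h D X

/-- block C -/
def StO34 (V : Type) [Fintype V] : Prop :=
  ∀ (D : V → V → Prop) (B U : V → Finset V), Feas D B U →
    (∀ B' U', Feas D B' U' → en' D B U ≤ en' D B' U') → O3 D B U ∧ O4 D B U

/-- block D -/
def StKey (V : Type) [Fintype V] : Prop :=
  ∀ (D : V → V → Prop) (B U : V → Finset V), Feas D B U → O3 D B U → O4 D B U →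
    cnt (fun a u => EU D U a u ∧ ¬ EB D B a u) + cnt (fun a x => AU D U a x ∧ ¬ AB D B a x) ≤
      cnt (fun a x => a ∈ U x ∧ ¬ x ∈ B a) + cnt (fun a u => PP D U a u ∧ ¬ QQ D B a u)

/-- block E -/
def StRot (V : Type) [Fintype V] : Prop :=
  ∀ (D : V → V → Prop) (B U : V → Finset V), Ori D → Feas D B U →
    cnt (fun a u => EU D U a u ∧ ¬ EB D B a u) + cnt (fun a x => AU D U a x ∧ ¬ AB D B a x) ≤
      cnt (fun a x => a ∈ U x ∧ ¬ x ∈ B a) + cnt (fun a u => PP D U a u ∧ ¬ QQ D B a u) →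
    ∃ B' U', Feas D B' U' ∧ en D B' U' ≤ en' D B U

/-- block F -/
def StFinal (V : Type) [Fintype V] : Prop :=
  ∀ (D : V → V → Prop) (B U : V → Finset V), Ori D → Feas D B U →
    (∀ B' U', Feas D B' U' → en D B U ≤ en D B' U') →
    (∀ B' U', Feas D B' U' → en D B U ≤ en' D B' U') →
    (∀ X : Finset V, ¬ cl D X ⊆ X → 0 < h D X) → (∀ v, ∃ u, D v u) → Nonempty V → False

end Vale.Agent.P038.H465
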