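import Vale.Agent.P038.H465.Key

namespace Vale.Agent.P038.H465

open Finset

attribute [local instance] Classical.propDecidable

variable {V : Type} [Fintype V]

theorem sum_update_sub (f : V → Finset V → ℤ) (B : V → Finset V) (a : V) (S : Finset V) :
    (∑ v, f v (Function.update B a S v)) - ∑ v, f v (B v) = f a S - f a (B a) := by
  rw [← Finset.sum_sub_distrib]
  rw [Finset.sum_eq_single a]
  · simp
  · intro b _ hb
    simp [Function.update_of_ne hb]
  · intro h; exact absurd (mem_univ a) h

theorem o34 : StO34 V := by
  intro D B U hF hmin
  constructor
  · intro a S hS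
    -- replace row a of B by S ∪ B a
    have hF' : Feas D (Function.update B a (S ∪ B a)) U := by
      refine ⟨?_, ?_, hF.rev⟩
      · intro a' x hr
        by_cases h : a' = a
        · subst h
          simp only [Function.update_self]
          exact mem_union_right _ (hF.refl _ _ hr)
        · rw [Function.update_of_ne h]; exact hF.refl _ _ hr
      · intro a' x hx
        by_cases h : a' = a
        · subst h
          simp only [Function.update_self, mem_union] at hx
          rcases hx with hx | hx
          · exact hS x hx
          · exact hF.le _ _ hx
        · rw [Function.update_of_ne h] at hx; exact hF.le _ _ hx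
    have k := hmin _ _ hF'
    unfold en' at k
    have e := sum_update_sub (fun _ T => ((cl D T).card : ℤ) - T.card) B a (S ∪ B a)
    beta_reduce at e
    have c1 : (S ∪ B a).card = (S \ B a).card + (B a).card := by
      rw [← card_union_of_disjoint (sdiff_disjoint), sdiff_union_self_eq_union]
    have c2 : (cl D (S ∪ B a)).card ≤ (cl D S \ cl D (B a)).card + (cl D (B a)).card := by
      rw [← card_union_of_disjoint (sdiff_disjoint), sdiff_union_self_eq_union]
      apply card_le_card
      intro u hu
      obtain ⟨x, hx, hr⟩ := mem_cl.1 hu
      rw [mem_union] at hx ⊢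
      rcases hx with hx | hx
      · left; exact mem_cl.2 ⟨x, hx, hr⟩
      · right; exact mem_cl.2 ⟨x, hx, hr⟩
    zify at c1 c2 ⊢
    linarith
  · intro x T hT
    have hF' : Feas D B (Function.update U x (U x \ T)) := by
      refine ⟨hF.refl, ?_, ?_⟩
      · intro a y hy
        by_cases h : y = x
        · subst h
          simp only [Function.update_self, mem_sdiff]
          exact ⟨hF.le _ _ hy, fun h => hT a h hy⟩
        · rw [Function.update_of_ne h]; exact hF.le _ _ hy
      · intro y z hyz
        by_cases h : y = x
        · subst h
          simp only [Function.update_self, mem_sdiff]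
          exact fun h => hF.rev _ _ hyz h.1
        · rw [Function.update_of_ne h]; exact hF.rev _ _ hyz
    have k := hmin _ _ hF'
    unfold en' at k
    have e := sum_update_sub (fun _ T => (T.card : ℤ) - (er D T).card) U x (U x \ T)
    beta_reduce at e
    have c1 : (U x).card = (U x \ T).card + (T ∩ U x).card := by
      rw [inter_comm]; exact (card_sdiff_add_card_inter _ _).symm
    have c2 : (er D (U x)).card ≤ (er D (U x \ T)).card + (cl D T ∩ er D (U x)).card := by
      refine (card_le_card ?_).trans (card_union_le _ _)
      intro z hz
      rw [mem_union, mem_inter]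
      by_cases h : z ∈ cl D T
      · right; exact ⟨h, hz⟩
      · left
        rw [mem_er] at hz ⊢
        intro z' hz'
        rw [mem_sdiff]
        exact ⟨hz z' hz', fun hT' => h (mem_cl.2 ⟨z', hT', hz'⟩)⟩
    zify at c1 c2 ⊢
    linarith

end Vale.Agent.P038.H465
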