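import Vale.Agent.P038.H465.Key

namespace Vale.Agent.P038.H465

open Finset

attribute [local instance] Classical.propDecidable

variable {V : Type} [Fintype V]

theorem mem_int {D : V → V → Prop} {S : Finset V} {x : V} :
    x ∈ int D S ↔ ∀ y, R D x y → y ∈ S := by
  simp [int]

theorem mem_cm {D : V → V → Prop} {S : Finset V} {x : V} : x ∈ cm D S ↔ ∃ y ∈ S, R D x y := by
  simp [cm]

theorem R_refl (D : V → V → Prop) (a : V) : R D a a := Or.inl rfl

theorem cl_compl (D : V → V → Prop) (S : Finset V) : cl D Sᶜ = (er D S)ᶜ := by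
  ext u
  rw [mem_cl, mem_compl, mem_er]
  push Not
  constructor
  · rintro ⟨x, hx, hr⟩; exact ⟨x, hr, mem_compl.1 hx⟩
  · rintro ⟨x, hr, hx⟩; exact ⟨x, mem_compl.2 hx, hr⟩

/-- `L a = N[int (B a)]` -/
noncomputable def LL (D : V → V → Prop) (B : V → Finset V) (a : V) : Finset V := cl D (int D (B a))
/-- `T b = N⁻[U b \ {b}]` -/
noncomputable def TT (D : V → V → Prop) (U : V → Finset V) (b : V) : Finset V :=
  cm D ((U b).erase b)
/-- `M0 b = er (T b)` -/
noncomputable def M0 (D : V → V → Prop) (U : V → Finset V) (b : V) : Finset V := er D (TT D U b)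
/-- `M b = M0 b ∪ {b}` -/
noncomputable def MM (D : V → V → Prop) (U : V → Finset V) (b : V) : Finset V :=
  insert b (M0 D U b)

theorem self_notMem_TT {D : V → V → Prop} {B U : V → Finset V} (hF : Feas D B U) (b : V) :
    b ∉ TT D U b := by
  unfold TT
  rw [mem_cm]
  rintro ⟨y, hy, hr⟩
  rw [mem_erase] at hy
  rcases hr with rfl | hr
  · exact hy.1 rfl
  · exact hF.rev _ _ hr hy.2

theorem self_notMem_M0 {D : V → V → Prop} {B U : V → Finset V} (hF : Feas D B U) (b : V) :
    b ∉ M0 D U b := by
  unfold M0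
  rw [mem_er]
  intro h
  exact self_notMem_TT hF b (h b (R_refl D b))

theorem notMem_M0 {D : V → V → Prop} {B U : V → Finset V} (hF : Feas D B U) {y z : V}
    (h : D y z) : z ∉ M0 D U y := by
  unfold M0
  rw [mem_er]
  intro h'
  exact self_notMem_TT hF y (h' y (Or.inr h))

theorem erase_sub_M0 {D : V → V → Prop} (U : V → Finset V) (b : V) :
    (U b).erase b ⊆ M0 D U b := by
  intro z hz
  unfold M0
  rw [mem_er]
  intro z' hz'
  exact mem_cm.2 ⟨z, hz, hz'⟩

theorem feasLM {D : V → V → Prop} (hO : Ori D) {B U : V → Finset V} (hF : Feas D B U) :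
    Feas D (LL D B) (MM D U) := by
  refine ⟨?_, ?_, ?_⟩
  · intro a x hr
    exact mem_cl.2 ⟨a, mem_int.2 (fun y hy => hF.refl _ _ hy), hr⟩
  · intro a x hx
    obtain ⟨y, hy, hr⟩ := mem_cl.1 hx
    have hxB : x ∈ B a := mem_int.1 hy x hr
    by_cases h : a = x
    · subst h; exact mem_insert_self _ _
    · apply mem_insert_of_mem
      apply erase_sub_M0
      exact mem_erase.2 ⟨h, hF.le _ _ hxB⟩
  · intro y z hyz hz
    unfold MM at hz
    rw [mem_insert] at hz
    rcases hz with rfl | hz
    · exact hO.1 _ hyz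
    · exact notMem_M0 hF hyz hz

theorem in_mem_M0 {D : V → V → Prop} (hO : Ori D) {B U : V → Finset V} (hF : Feas D B U) {b z : V}
    (h : D z b) : z ∈ (U b).erase b := by
  refine mem_erase.2 ⟨?_, hF.le _ _ (hF.refl _ _ (Or.inr h))⟩
  rintro rfl
  exact hO.1 _ h

theorem int_LL (D : V → V → Prop) (B : V → Finset V) (a : V) :
    int D (LL D B a) = int D (B a) := by
  ext x
  rw [mem_int, mem_int]
  constructor
  · intro h y hy
    obtain ⟨z, hz, hr⟩ := mem_cl.1 (h y hy)
    exact mem_int.1 hz y hr
  · intro h y hy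
    exact mem_cl.2 ⟨x, mem_int.2 h, hy⟩

theorem LL_sub (D : V → V → Prop) (B : V → Finset V) (a : V) : LL D B a ⊆ B a := by
  intro y hy
  obtain ⟨z, hz, hr⟩ := mem_cl.1 hy
  exact mem_int.1 hz y hr

theorem cm_MM {D : V → V → Prop} (hO : Ori D) {B U : V → Finset V} (hF : Feas D B U) (b : V) :
    cm D (MM D U b) = insert b (TT D U b) := by
  ext x
  rw [mem_cm, mem_insert]
  constructor
  · rintro ⟨y, hy, hr⟩
    unfold MM at hy
    rw [mem_insert] at hy
    rcases hy with rfl | hy
    · rcases hr with rfl | hr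
      · left; rfl
      · right
        unfold TT
        exact mem_cm.2 ⟨x, in_mem_M0 hO hF hr, R_refl D x⟩
    · right
      exact mem_er.1 hy x hr
  · rintro (rfl | hx)
    · exact ⟨x, mem_insert_self _ _, R_refl D x⟩
    · obtain ⟨y, hy, hr⟩ := mem_cm.1 hx
      exact ⟨y, mem_insert_of_mem (erase_sub_M0 U b hy), hr⟩

theorem cm_U {D : V → V → Prop} (hO : Ori D) {B U : V → Finset V} (hF : Feas D B U) (b : V) :
    cm D (U b) = insert b (TT D U b) := by
  ext x
  rw [mem_cm, mem_insert]
  constructor
  · rintro ⟨y, hy, hr⟩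
    by_cases h : y = b
    · subst h
      rcases hr with rfl | hr
      · left; rfl
      · right
        exact mem_cm.2 ⟨x, in_mem_M0 hO hF hr, R_refl D x⟩
    · right
      exact mem_cm.2 ⟨y, mem_erase.2 ⟨h, hy⟩, hr⟩
  · rintro (rfl | hx)
    · exact ⟨x, hF.le _ _ (hF.refl _ _ (R_refl D x)), R_refl D x⟩
    · obtain ⟨y, hy, hr⟩ := mem_cm.1 hx
      exact ⟨y, (mem_erase.1 hy).2, hr⟩

theorem er_MM {D : V → V → Prop} (hO : Ori D) {B U : V → Finset V} (hF : Feas D B U) (b : V) :
    er D (MM D U b) = insert b (er D (M0 D U b)) := by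
  ext z
  rw [mem_er, mem_insert, mem_er]
  constructor
  · intro h
    by_cases hz : z = b
    · left; exact hz
    · right
      intro z' hz'
      have h1 := h z' hz'
      unfold MM at h1
      rw [mem_insert] at h1
      rcases h1 with rfl | h1
      · exfalso
        rcases hz' with rfl | hz'
        · exact hz rfl
        · have h2 := h z (R_refl D z)
          unfold MM at h2
          rw [mem_insert] at h2
          rcases h2 with h2 | h2
          · exact hz h2
          · exact notMem_M0 hF hz' h2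
      · exact h1
  · rintro (rfl | h) z' hz'
    · rcases hz' with rfl | hz'
      · exact mem_insert_self _ _
      · exact mem_insert_of_mem (erase_sub_M0 U z (in_mem_M0 hO hF hz'))
    · exact mem_insert_of_mem (h z' hz')

theorem enLM_le {D : V → V → Prop} (hO : Ori D) {B U : V → Finset V} (hF : Feas D B U) :
    en D (LL D B) (MM D U) ≤ en D B U := by
  unfold en
  apply add_le_add
  · apply sum_le_sum
    intro a _
    rw [int_LL]
    have := card_le_card (LL_sub D B a)
    zify at this
    linarith
  · apply sum_le_sum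
    intro b _
    rw [cm_MM hO hF, cm_U hO hF]
    have h1 : (U b).card ≤ (MM D U b).card := by
      apply card_le_card
      intro z hz
      by_cases h : z = b
      · subst h; exact mem_insert_self _ _
      · exact mem_insert_of_mem (erase_sub_M0 U b (mem_erase.2 ⟨h, hz⟩))
    zify at h1
    linarith

/-- the sets `Y_b` -/
noncomputable def YY (D : V → V → Prop) (U : V → Finset V) (b : V) : Finset V := (TT D U b)ᶜ

theorem card_compl_int (S : Finset V) : ((Sᶜ).card : ℤ) = (Fintype.card V : ℤ) - S.card := by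
  rw [card_compl]
  have := card_le_univ S
  push_cast [Nat.cast_sub this]
  ring

theorem h_YY {D : V → V → Prop} (U : V → Finset V) (b : V) :
    h D (YY D U b) = ((TT D U b).card : ℤ) - 2 * (M0 D U b).card + (er D (M0 D U b)).card := by
  unfold h YY
  rw [cl_compl]
  change 2 * (((M0 D U b)ᶜ).card : ℤ) - _ - ((cl D (M0 D U b)ᶜ).card : ℤ) = _
  rw [cl_compl, card_compl_int, card_compl_int, card_compl_int]
  ring

theorem sum_h {D : V → V → Prop} (hO : Ori D) {B U : V → Finset V} (hF : Feas D B U) :
    (∑ a, h D (int D (B a))) + ∑ b, h D (YY D U b) =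
      en D (LL D B) (MM D U) - en' D (LL D B) (MM D U) := by
  unfold en en'
  have e1 : ∑ a, h D (int D (B a)) =
      ∑ a, ((((LL D B a).card : ℤ) - (int D (LL D B a)).card) -
        (((cl D (LL D B a)).card : ℤ) - (LL D B a).card)) := by
    apply sum_congr rfl
    intro a _
    rw [int_LL]
    unfold h LL
    ring
  have e2 : ∑ b, h D (YY D U b) =
      ∑ b, ((((cm D (MM D U b)).card : ℤ) - (MM D U b).card) -
        (((MM D U b).card : ℤ) - (er D (MM D U b)).card)) := by
    apply sum_congr rfl
    intro b _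
    rw [h_YY, cm_MM hO hF, er_MM hO hF]
    have n1 : b ∉ er D (M0 D U b) := fun hb => self_notMem_M0 hF b (mem_er.1 hb b (R_refl D b))
    rw [card_insert_of_notMem (self_notMem_TT hF b), card_insert_of_notMem n1]
    unfold MM
    rw [card_insert_of_notMem (self_notMem_M0 hF b)]
    push_cast
    ring
  rw [e1, e2]
  simp only [sum_sub_distrib]
  ring

theorem subset_cl (D : V → V → Prop) (S : Finset V) : S ⊆ cl D S :=
  fun x hx => mem_cl.2 ⟨x, hx, R_refl D x⟩

/-- a closed walk: in a finite graph with out-degrees ≥ 1 no family of out-closed sets avoids the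
in-neighbours -/
theorem exists_bad {D : V → V → Prop} (hout : ∀ v, ∃ u, D v u) [Nonempty V]
    (X : V → Finset V) (hself : ∀ a, a ∈ X a) (hcl : ∀ a, cl D (X a) ⊆ X a)
    (hin : ∀ a z, D z a → z ∉ X a) : False := by
  classical
  -- choose `a` with `X a` of minimal size and iterate
  obtain ⟨f, hf⟩ : ∃ f : V → V, ∀ v, D v (f v) := ⟨fun v => (hout v).choose, fun v => (hout v).choose_spec⟩
  obtain ⟨v0⟩ := ‹Nonempty V›
  -- reachable set
  have reach : ∀ a, ∀ k : ℕ, (f^[k]) a ∈ X a := by
    intro a k
    induction k with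
    | zero => exact hself a
    | succ k ih =>
      rw [Function.iterate_succ_apply']
      exact hcl a (mem_cl.2 ⟨_, ih, Or.inr (hf _)⟩)
  -- pigeonhole on the orbit of v0
  have hni : ¬ Function.Injective (fun k : ℕ => (f^[k]) v0) := not_injective_infinite_finite _
  rw [Function.Injective] at hni
  push Not at hni
  obtain ⟨i, j, hij, hne⟩ := hni
  wlog hlt : i < j generalizing i j
  · exact this j i hij.symm hne.symm (lt_of_le_of_ne (not_lt.1 hlt) hne.symm)
  obtain ⟨d, rfl⟩ := Nat.exists_eq_add_of_lt hlt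
  -- a = f^[i] v0, f^[d+1] a = a
  set a := (f^[i]) v0 with ha
  have hcyc : f ((f^[d]) a) = a := by
    rw [← Function.iterate_succ_apply' f d a, ha, ← Function.iterate_add_apply]
    have : d.succ + i = i + d + 1 := by omega
    rw [this]
    exact hij.symm
  have h1 : D ((f^[d]) a) a := by
    have := hf ((f^[d]) a)
    rwa [hcyc] at this
  exact hin a _ h1 (reach a d)

theorem final : StFinal V := by
  intro D B U hO hF hmin hrot hG hout hne
  have s1 := sum_h hO hF
  have s2 := enLM_le hO hF
  have s3 := hrot _ _ (feasLM hO hF)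
  have hnn : ∀ X : Finset V, 0 ≤ h D X := by
    intro X
    by_cases hX : cl D X ⊆ X
    · have e : cl D X = X := Subset.antisymm hX (subset_cl D X)
      unfold h
      rw [e, e]
      linarith
    · exact (hG X hX).le
  -- hence all `h (int (B a)) = 0`
  have t1 : ∑ a, h D (int D (B a)) ≤ 0 := by
    have : 0 ≤ ∑ b, h D (YY D U b) := sum_nonneg fun b _ => hnn _
    linarith
  have t2 : ∀ a, h D (int D (B a)) = 0 := by
    have := (sum_eq_zero_iff_of_nonneg (s := univ) (f := fun a => h D (int D (B a)))
      (fun a _ => hnn _)).1 (le_antisymm t1 (sum_nonneg fun a _ => hnn _))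
    intro a
    exact this a (mem_univ a)
  refine exists_bad hout (fun a => int D (B a)) ?_ ?_ ?_
  · intro a
    exact mem_int.2 fun y hy => hF.refl _ _ hy
  · intro a
    by_contra hc
    have := hG _ hc
    rw [t2 a] at this
    exact lt_irrefl _ this
  · intro a z hz hza
    have : a ∈ B a := hF.refl _ _ (R_refl D a)
    have h1 : z ∈ B a := mem_int.1 hza z (R_refl D z)
    exact hF.rev _ _ hz (by
      have := hF.le _ _ h1
      exact absurd this (hF.rev _ _ hz))

end Vale.Agent.P038.H465
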