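import Vale.Agent.P038.H465.Base

namespace Vale.Agent.P038.H465

open Finset

attribute [local instance] Classical.propDecidable

variable {V : Type} [Fintype V]

theorem mem_cl {D : V → V → Prop} {S : Finset V} {u : V} : u ∈ cl D S ↔ ∃ x ∈ S, R D x u := by
  simp [cl]

theorem mem_er {D : V → V → Prop} {S : Finset V} {z : V} :
    z ∈ er D S ↔ ∀ z', R D z' z → z' ∈ S := by
  simp [er]

theorem cl_mono {D : V → V → Prop} {S T : Finset V} (h : S ⊆ T) : cl D S ⊆ cl D T := by
  intro u hu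
  rw [mem_cl] at hu ⊢
  obtain ⟨x, hx, hr⟩ := hu
  exact ⟨x, h hx, hr⟩

/-- (H1), general form -/
theorem H1_aux {D : V → V → Prop} {B U : V → Finset V} (h3 : O3 D B U) (T : Finset V) :
    ∀ S : Finset V, (∀ x ∈ S, ∀ a' ∈ T, a' ∈ U x) →
      (S.filter (fun x => ¬ ∀ a' ∈ T, x ∈ B a')).card ≤
        ((cl D S).filter (fun u => ¬ ∀ a' ∈ T, u ∈ cl D (B a'))).card := by
  induction T using Finset.induction_on with
  | empty => intro S _; simp
  | insert b T hb ih =>
    intro S hS
    set S1 := S.filter (fun x => ∀ a' ∈ T, x ∈ B a') with hS1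
    have e1 : (S.filter (fun x => ¬ ∀ a' ∈ insert b T, x ∈ B a')) ⊆
        (S.filter (fun x => ¬ ∀ a' ∈ T, x ∈ B a')) ∪ (S1 \ B b) := by
      intro x hx
      rw [mem_filter] at hx
      rw [mem_union, mem_filter, mem_sdiff, hS1, mem_filter]
      by_cases h : ∀ a' ∈ T, x ∈ B a'
      · right
        refine ⟨⟨hx.1, h⟩, fun hxb => hx.2 ?_⟩
        intro a' ha'
        rw [mem_insert] at ha'
        rcases ha' with rfl | ha'
        · exact hxb
        · exact h a' ha'
      · left; exact ⟨hx.1, h⟩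
    have e2 : ((cl D S).filter (fun u => ¬ ∀ a' ∈ T, u ∈ cl D (B a'))) ∪
        (cl D S1 \ cl D (B b)) ⊆
        ((cl D S).filter (fun u => ¬ ∀ a' ∈ insert b T, u ∈ cl D (B a'))) := by
      intro u hu
      rw [mem_union, mem_filter, mem_sdiff] at hu
      rw [mem_filter]
      rcases hu with hu | hu
      · exact ⟨hu.1, fun h => hu.2 fun a' ha' => h a' (mem_insert_of_mem ha')⟩
      · exact ⟨cl_mono (filter_subset _ _) hu.1, fun h => hu.2 (h b (mem_insert_self _ _))⟩
    have e3 : Disjoint ((cl D S).filter (fun u => ¬ ∀ a' ∈ T, u ∈ cl D (B a')))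
        (cl D S1 \ cl D (B b)) := by
      rw [Finset.disjoint_left]
      intro u hu hu'
      rw [mem_filter] at hu
      rw [mem_sdiff] at hu'
      apply hu.2
      intro a' ha'
      obtain ⟨x, hx, hr⟩ := mem_cl.1 hu'.1
      rw [hS1, mem_filter] at hx
      exact mem_cl.2 ⟨x, hx.2 a' ha', hr⟩
    have i1 := ih S (fun x hx a' ha' => hS x hx a' (mem_insert_of_mem ha'))
    have i2 := h3 b S1 (fun x hx => hS x (mem_filter.1 hx).1 b (mem_insert_self _ _))
    calc _ ≤ _ := card_le_card e1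
      _ ≤ _ := card_union_le _ _
      _ ≤ _ := Nat.add_le_add i1 i2
      _ = _ := (card_union_of_disjoint e3).symm
      _ ≤ _ := card_le_card e2

/-- (H2), general form -/
theorem H2_aux {D : V → V → Prop} {B U : V → Finset V} (h4 : O4 D B U) (T : Finset V) :
    ∀ S : Finset V, (∀ x ∈ T, ∀ a ∈ S, x ∉ B a) →
      (S.filter (fun a => ∃ x ∈ T, a ∈ U x)).card ≤
        ((cl D S).filter (fun a => ∃ x ∈ T, a ∈ er D (U x))).card := by
  induction T using Finset.induction_on with
  | empty => intro S _; simp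
  | insert b T hb ih =>
    intro S hS
    set S1 := S.filter (fun a => ¬ ∃ x ∈ T, a ∈ U x) with hS1
    have e1 : (S.filter (fun a => ∃ x ∈ insert b T, a ∈ U x)) ⊆
        (S.filter (fun a => ∃ x ∈ T, a ∈ U x)) ∪ (S1 ∩ U b) := by
      intro a ha
      rw [mem_filter] at ha
      rw [mem_union, mem_filter, mem_inter, hS1, mem_filter]
      by_cases h : ∃ x ∈ T, a ∈ U x
      · left; exact ⟨ha.1, h⟩
      · right
        obtain ⟨x, hx, hax⟩ := ha.2
        rw [mem_insert] at hx
        rcases hx with rfl | hx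
        · exact ⟨⟨ha.1, h⟩, hax⟩
        · exact absurd ⟨x, hx, hax⟩ h
    have e2 : ((cl D S).filter (fun a => ∃ x ∈ T, a ∈ er D (U x))) ∪
        (cl D S1 ∩ er D (U b)) ⊆
        ((cl D S).filter (fun a => ∃ x ∈ insert b T, a ∈ er D (U x))) := by
      intro a ha
      rw [mem_union, mem_filter, mem_inter] at ha
      rw [mem_filter]
      rcases ha with ha | ha
      · obtain ⟨x, hx, hax⟩ := ha.2
        exact ⟨ha.1, x, mem_insert_of_mem hx, hax⟩
      · exact ⟨cl_mono (filter_subset _ _) ha.1, b, mem_insert_self _ _, ha.2⟩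
    have e3 : Disjoint ((cl D S).filter (fun a => ∃ x ∈ T, a ∈ er D (U x)))
        (cl D S1 ∩ er D (U b)) := by
      rw [Finset.disjoint_left]
      intro a ha ha'
      rw [mem_filter] at ha
      rw [mem_inter] at ha'
      obtain ⟨s, hs, hr⟩ := mem_cl.1 ha'.1
      rw [hS1, mem_filter] at hs
      obtain ⟨x, hx, hax⟩ := ha.2
      exact hs.2 ⟨x, hx, mem_er.1 hax s hr⟩
    have i1 := ih S (fun x hx a ha => hS x (mem_insert_of_mem hx) a ha)
    have i2 := h4 b S1 (fun a ha => hS b (mem_insert_self _ _) a (mem_filter.1 ha).1)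
    calc _ ≤ _ := card_le_card e1
      _ ≤ _ := card_union_le _ _
      _ ≤ _ := Nat.add_le_add i1 i2
      _ = _ := (card_union_of_disjoint e3).symm
      _ ≤ _ := card_le_card e2

/-- a relation as a finset -/
noncomputable def rel (r : V → V → Prop) : Finset (V × V) :=
  univ.filter (fun p : V × V => r p.1 p.2)

theorem mem_rel {r : V → V → Prop} {a u : V} : (a, u) ∈ rel r ↔ r a u := by
  simp [rel]

theorem cnt_rel (r : V → V → Prop) : cnt r = (rel r).card := rfl

/-- the linear algebra block (721 / 515) -/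
def SqKey (V : Type) [Fintype V] : Prop :=
  ∀ (R : V → V → Prop) (Ah G H Eh : Finset (V × V)),
    (∀ a a' x u, (a, x) ∈ Ah → R a' a → R x u → (a', u) ∈ Eh → (a', x) ∈ G) →
    (∀ a a' x u, (a, x) ∈ Ah → R a' a → R x u → (a', u) ∈ Eh → (a, u) ∈ H) →
    (∀ a, ∀ S : Finset V, (∀ x ∈ S, (a, x) ∈ Ah) →
      S.card ≤ (univ.filter fun u => (a, u) ∈ H ∧ ∃ x ∈ S, R x u).card) →
    (∀ u, ∀ S : Finset V, (∀ a' ∈ S, (a', u) ∈ Eh) →
      S.card ≤ (univ.filter fun a => (a, u) ∈ H ∧ ∃ a' ∈ S, R a' a).card) →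
    Ah.card + Eh.card ≤ G.card + H.card

theorem key (hsq : SqKey V) : StKey V := by
  intro D B U hF h3 h4
  rw [cnt_rel, cnt_rel, cnt_rel, cnt_rel]
  have := hsq (R D) (rel (fun a x => AU D U a x ∧ ¬ AB D B a x))
    (rel (fun a x => a ∈ U x ∧ ¬ x ∈ B a))
    (rel (fun a u => PP D U a u ∧ ¬ QQ D B a u))
    (rel (fun a u => EU D U a u ∧ ¬ EB D B a u)) ?_ ?_ ?_ ?_
  · omega
  · intro a a' x u h1 h2 h3 h4
    simp only [mem_rel, mem_filter, mem_univ, true_and] at h1 h4 ⊢
    exact ⟨h1.1 a' h2, fun hx => h4.2 ⟨x, h3, hx⟩⟩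
  · intro a a' x u h1 h2 h3 h4
    simp only [mem_rel, mem_filter, mem_univ, true_and] at h1 h4 ⊢
    exact ⟨⟨x, h3, h1.1⟩, fun hq => h4.2 (hq a' h2)⟩
  · intro a S hS
    simp only [mem_rel, mem_filter, mem_univ, true_and] at hS
    have k := H1_aux h3 (univ.filter (fun a' => R D a' a)) S (by
      intro x hx a' ha'
      rw [mem_filter] at ha'
      exact (hS x hx).1 a' ha'.2)
    refine (card_le_card ?_).trans (k.trans (card_le_card ?_))
    · intro x hx
      rw [mem_filter]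
      refine ⟨hx, fun hall => (hS x hx).2 ?_⟩
      intro a' ha'
      exact hall a' (by simp [ha'])
    intro u hu
    simp only [mem_rel, mem_filter, mem_univ, true_and] at hu ⊢
    obtain ⟨x, hx, hr⟩ := mem_cl.1 hu.1
    refine ⟨⟨⟨x, hr, (hS x hx).1⟩, fun hq => hu.2 ?_⟩, x, hx, hr⟩
    intro a' ha'
    obtain ⟨y, hy, hyB⟩ := hq a' ha'
    exact mem_cl.2 ⟨y, hyB, hy⟩
  · intro u S hS
    simp only [mem_rel, mem_filter, mem_univ, true_and] at hS
    have k := H2_aux h4 (univ.filter (fun x => R D x u)) S (by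
      intro x hx a ha hxB
      rw [mem_filter] at hx
      exact (hS a ha).2 ⟨x, hx.2, hxB⟩)
    refine (card_le_card ?_).trans (k.trans (card_le_card ?_))
    · intro a ha
      rw [mem_filter]
      obtain ⟨x, hx, hxU⟩ := (hS a ha).1
      exact ⟨ha, x, by simp [hx], hxU⟩
    intro a ha
    simp only [mem_rel, mem_filter, mem_univ, true_and] at ha ⊢
    obtain ⟨a', ha', hr⟩ := mem_cl.1 ha.1
    obtain ⟨x, hx, hxe⟩ := ha.2
    refine ⟨⟨⟨x, hx, fun z' hz' => mem_er.1 hxe z' hz'⟩, fun hq => (hS a' ha').2 (hq a' hr)⟩,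
      a', ha', hr⟩

end Vale.Agent.P038.H465
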