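import Vale.Agent.P038.H465.Key
import Vale.Agent.P038.H721.Sq

namespace Vale.Agent.P038.H465

open Finset

attribute [local instance] Classical.propDecidable

theorem sqKey (V : Type) [Fintype V] : SqKey V := by
  intro R Ah G H Eh s1 s2 h1 h2
  exact H721.sq_key R Ah G H Eh s1 s2 (fun a S hS => by convert h1 a S hS)
    (fun u S hS => by convert h2 u S hS)

theorem stKey (V : Type) [Fintype V] : StKey V := key (sqKey V)

end Vale.Agent.P038.H465
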